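import Vale.Agent.P284.GeomDefs
import Vale.Agent.P284.H593.Final

namespace Vale.Agent.Results.P284.AllQuotients

open Vale.Agent.P284 Vale.Agent.P284.H593 Function
open scoped Manifold ContDiff

/-- Let `X` be a special compact Kähler manifold of dimension `n`, and assume the published
restrictions on `π₁(X)`.
(1) The criteria for virtual commutativity of `π₁(X)` are equivalent.
(2) They are equivalent for every quotient `Q` of `π₁(X)`, together with three further ones: `Q` is
tame, `Q` is locally virtually indicable, `Q` is virtually `ℤˢ` with `s ≤ 2n`.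
(3) There is one finite-index subgroup `H` of `π₁(X)` such that `π₁(X)` is virtually abelian if and
only if the kernel `zKer H` of `H → H₁(H, ℤ) / torsion` is finite, and such that `zKer H` has finite
image under every homomorphism from `π₁(X)` to a tame group.
(4) Elementary amenable, locally indicable, locally virtually indicable and complex linear groups
are tame. -/
theorem result {E : Type} [NormedAddCommGroup E] [NormedSpace ℂ E] [FiniteDimensional ℂ E]
    {X : Type} [TopologicalSpace X] [T2Space X] [CompactSpace X]
    [ConnectedSpace X] [ChartedSpace E X] [IsManifold 𝓘(ℂ, E) ω X]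
    (_hKahler : IsKahler E X) (_hSpecial : IsSpecial E X) (x : X)
    (h : Restricted (FundamentalGroup X x) (2 * Module.finrank ℂ E)) :
    (criteria (FundamentalGroup X x)).TFAE ∧
    (∀ (Q : Type) [Group Q] (f : FundamentalGroup X x →* Q), Surjective f →
      ([Tame Q, LocVirtInd Q, VirtZLe Q (2 * Module.finrank ℂ E)] ++ criteria Q).TFAE) ∧
    (∃ H : Subgroup (FundamentalGroup X x), H.FiniteIndex ∧ (zKer H).FG ∧
      (VirtAb (FundamentalGroup X x) ↔ Finite (zKer H)) ∧
      ∀ (Q : Type) [Group Q] (f : FundamentalGroup X x →* Q), Tame Q →
        Finite ((zKer H).map (f.comp H.subtype))) ∧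
    (∀ (Q : Type) [Group Q], (ElemAmen Q ∨ LocInd Q ∨ LocVirtInd Q ∨
      ∃ (d : ℕ) (ρ : Q →* Matrix.GeneralLinearGroup (Fin d) ℂ), Injective ρ) → Tame Q) :=
  group_main h

end Vale.Agent.Results.P284.AllQuotients
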