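import Vale.Agent.P284.GeomDefs
import Vale.Agent.P284.H142.Final

namespace Vale.Agent.Results.P284.UniformStructure

open Vale.Agent.P284 Vale.Agent.P284.H593 Vale.Agent.P284.H673 Vale.Agent.P284.H142
open Function Filter Topology
open scoped Manifold ContDiff

/-- Let `X` be a special compact Kähler manifold of dimension `n`, and assume the published
restrictions on `π₁(X)`.
(1) The criteria for virtual commutativity of `π₁(X)` are equivalent.
(2) They are equivalent for every quotient `Q` of `π₁(X)`, together with three further ones: `Q` is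
tame, `Q` is locally virtually indicable, `Q` is virtually `ℤˢ` with `s ≤ 2n`.
(3) Every homomorphism from a finite-index subgroup of `π₁(X)` to a tame group has image virtually
`ℤˢ` with `s ≤ 2n`.
(4) Uniformity: for every `d` there is one finite-index subgroup which has abelian image under all
representations of `π₁(X)` of dimension `d` over all commutative `ℚ`-algebras.
(5) Structure: there is one finite-index subgroup `H` of `π₁(X)` such that `π₁(X)` is virtually
abelian if and only if the kernel `zKer H` of `H → H₁(H, ℤ) / torsion` is finite; `zKer H` is finitely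
generated, no finite-index subgroup of it surjects onto `ℤ`, it is not periodic, it has finite image
under all homomorphisms to locally virtually indicable groups and under all homomorphisms from
`π₁(X)` to tame groups, it does not change for finite covers, and for each `d` one finite-index
subgroup of it is killed by all representations of `π₁(X)` of dimension `d`.
(6) - (10) Tame groups: elementary amenable, locally indicable, locally virtually indicable and
complex linear groups; bi-orderable groups; amenable groups which are virtually left-orderable or act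
faithfully on the circle; finitely generated linear groups over commutative `ℚ`-algebras; groups of
germs of `C¹` diffeomorphisms; automorphism groups of finitely generated residually unipotent groups,
of free groups, of Noetherian local `ℂ`-algebras with residue field `ℂ`; subgroups, finite-index
overgroups, products, extensions of tame groups by locally virtually indicable groups. -/
theorem result {E : Type} [NormedAddCommGroup E] [NormedSpace ℂ E] [FiniteDimensional ℂ E]
    {X : Type} [TopologicalSpace X] [T2Space X] [CompactSpace X]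
    [ConnectedSpace X] [ChartedSpace E X] [IsManifold 𝓘(ℂ, E) ω X]
    (_hKahler : IsKahler E X) (_hSpecial : IsSpecial E X) (x : X)
    (h : Restricted (FundamentalGroup X x) (2 * Module.finrank ℂ E)) :
    ((criteria (FundamentalGroup X x)).TFAE ∧
    (∀ (Q : Type) [Group Q] (f : FundamentalGroup X x →* Q), Surjective f →
      ([Tame Q, LocVirtInd Q, VirtZLe Q (2 * Module.finrank ℂ E)] ++ criteria Q).TFAE) ∧
    (∀ (H : Subgroup (FundamentalGroup X x)) (Q : Type) [Group Q] (f : H →* Q), H.FiniteIndex →
      Tame Q → VirtZLe f.range (2 * Module.finrank ℂ E)) ∧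
    (∀ d : ℕ, ∃ H : Subgroup (FundamentalGroup X x), H.FiniteIndex ∧
      ∀ (R : Type) [CommRing R] [Algebra ℚ R]
        (ρ : FundamentalGroup X x →* Matrix.GeneralLinearGroup (Fin d) R),
        ∀ a ∈ H, ∀ b ∈ H, ρ a * ρ b = ρ b * ρ a) ∧
    (∃ H : Subgroup (FundamentalGroup X x), H.FiniteIndex ∧ (zKer H).FG ∧
      (VirtAb (FundamentalGroup X x) ↔ Finite (zKer H)) ∧
      (∀ (Q : Type) [Group Q] (f : FundamentalGroup X x →* Q), Tame Q →
        Finite ((zKer H).map (f.comp H.subtype))) ∧
      ¬ VirtInd (zKer H) ∧ ¬ Periodic (zKer H) ∧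
      (∀ (Q : Type) [Group Q] (f : zKer H →* Q), LocVirtInd Q → Finite f.range) ∧
      (∀ L : Subgroup H, L.FiniteIndex → zKer L = (zKer H).subgroupOf L) ∧
      ∀ d : ℕ, ∃ L : Subgroup (zKer H), L.FiniteIndex ∧
        ∀ (R : Type) [CommRing R] [Algebra ℚ R]
          (ρ : FundamentalGroup X x →* Matrix.GeneralLinearGroup (Fin d) R),
          ∀ k ∈ L, ρ (k : H) = 1) ∧
    (∀ (Q : Type) [Group Q], (ElemAmen Q ∨ LocInd Q ∨ LocVirtInd Q ∨
      ∃ (d : ℕ) (ρ : Q →* Matrix.GeneralLinearGroup (Fin d) ℂ), Injective ρ) → Tame Q)) ∧
    (∀ (Q : Type) [Group Q], (BiOrderable Q ∨ (Amenable Q ∧ VirtLeftOrderable Q) ∨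
      (Amenable Q ∧ ∃ F : Q → ℝ ≃o ℝ, CircleAct F)) → Tame Q) ∧
    (∀ (Q R : Type) [Group Q] [CommRing R] [Algebra ℚ R] (d : ℕ)
      (ρ : Q →* Matrix.GeneralLinearGroup (Fin d) R), Group.FG Q → Injective ρ → Tame Q) ∧
    (∀ (Q V : Type) [Group Q] [NormedAddCommGroup V] [NormedSpace ℝ V] [FiniteDimensional ℝ V]
      (s : Q → V → V), GermAct V s → (∀ g, s g =ᶠ[𝓝 0] id → g = 1) → Tame Q) ∧
    (∀ (N : Type) [Group N], Group.FG N → ResUnipotent N → Tame (MulAut N)) ∧
    (∀ m : ℕ, Tame (MulAut (FreeGroup (Fin m)))) ∧
    (∀ (A : Type) [CommRing A] [IsLocalRing A] [IsNoetherianRing A] [Algebra ℂ A],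
      Surjective (algebraMap ℂ (IsLocalRing.ResidueField A)) → Tame (A ≃ₐ[ℂ] A)) ∧
    (∀ (Q : Type) [Group Q] (H : Subgroup Q),
      (Tame Q → Tame H) ∧ (H.FiniteIndex → Tame H → Tame Q)) ∧
    (∀ (Q P : Type) [Group Q] [Group P],
      (Tame Q → Tame P → Tame (Q × P)) ∧ ∀ f : Q →* P, LocVirtInd f.ker → Tame P → Tame Q) :=
  ⟨main h, tame_list⟩

end Vale.Agent.Results.P284.UniformStructure
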